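import Mathlib

/-! P142: a holomorphic map injective on a set cannot have a multiple value seen in two directions -/

namespace Vale.Agent.P142

open Filter Topology Set Complex

theorem exists_inv {h : ℂ → ℂ} {ζ : ℂ} (hh : HasStrictDerivAt h 1 ζ) (h0 : h ζ = 0) :
    ∃ k : ℂ → ℂ, k 0 = ζ ∧ HasDerivAt k 1 0 ∧ ∀ᶠ y in 𝓝 (0 : ℂ), h (k y) = y := by
  refine ⟨hh.localInverse h 1 ζ one_ne_zero, ?_, ?_, ?_⟩
  · have h1 := HasStrictFDerivAt.localInverse_apply_image (hh.hasStrictFDerivAt_equiv one_ne_zero)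
    rw [h0] at h1
    exact h1
  · have h1 := (hh.to_localInverse one_ne_zero).hasDerivAt
    rw [h0, inv_one] at h1
    exact h1
  · have h1 := HasStrictFDerivAt.eventually_right_inverse
      (hh.hasStrictFDerivAt_equiv one_ne_zero)
    rw [h0] at h1
    exact h1

/-- `m`-th root coordinate -/
theorem exists_root {g : ℂ → ℂ} {ζ : ℂ} (hg : AnalyticAt ℂ g ζ) (hg0 : g ζ ≠ 0) {m : ℕ}
    (hm : 1 ≤ m) :
    ∃ h : ℂ → ℂ, HasStrictDerivAt h 1 ζ ∧ h ζ = 0 ∧
      ∀ᶠ z in 𝓝 ζ, (z - ζ) ^ m * g z = g ζ * h z ^ m := by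
  have hm0 : (m : ℂ) ≠ 0 := by exact_mod_cast (by omega : m ≠ 0)
  set q : ℂ → ℂ := fun z => g z / g ζ with hq
  have hq1 : q ζ = 1 := by simp [hq, div_self hg0]
  have hqa : AnalyticAt ℂ q ζ := hg.div_const
  have hs : q ζ ∈ slitPlane := by rw [hq1]; exact one_mem_slitPlane
  have hla : AnalyticAt ℂ (fun z => Complex.log (q z)) ζ := hqa.clog hs
  set e : ℂ → ℂ := fun z => Complex.exp (Complex.log (q z) / m) with he
  have hea : AnalyticAt ℂ e ζ := (hla.div_const).cexp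
  have he1 : e ζ = 1 := by simp [he, hq1]
  refine ⟨fun z => (z - ζ) * e z, ?_, by simp, ?_⟩
  · have h1 : HasStrictDerivAt (fun z : ℂ => z - ζ) 1 ζ := (hasStrictDerivAt_id ζ).sub_const ζ
    have h2 := h1.mul hea.hasStrictDerivAt
    have h3 : 1 * e ζ + (ζ - ζ) * deriv e ζ = 1 := by rw [he1]; ring
    rw [h3] at h2
    exact h2
  · have hne : ∀ᶠ z in 𝓝 ζ, q z ≠ 0 := by
      refine hqa.continuousAt.eventually_ne ?_
      rw [hq1]; exact one_ne_zero
    filter_upwards [hne] with z hz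
    have h3 : e z ^ m = q z := by
      simp only [he]
      rw [← Complex.exp_nat_mul, mul_div_cancel₀ _ hm0, Complex.exp_log hz]
    show (z - ζ) ^ m * g z = g ζ * ((z - ζ) * e z) ^ m
    rw [mul_pow, h3]
    simp only [hq]
    field_simp

theorem core {F : ℂ → ℂ} {ζ c : ℂ} {m : ℕ} (hm : 2 ≤ m) {g : ℂ → ℂ} (hg : AnalyticAt ℂ g ζ)
    (hg0 : g ζ ≠ 0) (hF : ∀ᶠ z in 𝓝 ζ, F z = c + (z - ζ) ^ m * g z) (D : Set ℂ) (v : ℂ)
    (hv : v ≠ 0)
    (hD : ∀ w : ℂ, (w = v ∨ w = Complex.exp (2 * Real.pi * I / m) * v) → ∀ φ : ℝ → ℂ,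
      HasDerivAt φ w 0 → φ 0 = ζ → ∀ᶠ ρ in 𝓝[>] (0 : ℝ), φ ρ ∈ D)
    (hinj : InjOn F D) : False := by
  obtain ⟨h, hh, h0, hroot⟩ := exists_root hg hg0 (by omega : 1 ≤ m)
  obtain ⟨k, hk0, hk, hinv⟩ := exists_inv hh h0
  have hm0 : (m : ℂ) ≠ 0 := by exact_mod_cast (by omega : m ≠ 0)
  set ω : ℂ := Complex.exp (2 * Real.pi * I / m) with hω
  have hωm : ω ^ m = 1 := by
    rw [hω, ← Complex.exp_nat_mul, mul_div_cancel₀ _ hm0, Complex.exp_two_pi_mul_I]
  have hω1 : ω ≠ 1 := by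
    have hp := Complex.isPrimitiveRoot_exp m (by omega)
    exact hp.ne_one (by omega)
  set φ1 : ℝ → ℂ := fun ρ => ζ + ρ * v with hφ1
  have hd1 : HasDerivAt φ1 v 0 := by
    have h1 : HasDerivAt (fun ρ : ℝ => (ρ : ℂ)) 1 0 := Complex.ofRealCLM.hasDerivAt
    have h2 := (h1.mul_const v).const_add ζ
    rw [one_mul] at h2
    exact h2
  have hφ10 : φ1 0 = ζ := by simp [hφ1]
  set φ2 : ℝ → ℂ := fun ρ => k (ω * h (φ1 ρ)) with hφ2
  have hφ20 : φ2 0 = ζ := by simp [hφ2, hφ10, h0, hk0]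
  have hh' : HasDerivAt h 1 (φ1 0) := by rw [hφ10]; exact hh.hasDerivAt
  have hd2a : HasDerivAt (fun ρ : ℝ => ω * h (φ1 ρ)) (ω * v) 0 := by
    have h1 := (hh'.scomp (0 : ℝ) hd1).const_mul ω
    simpa using h1
  have hk' : HasDerivAt k 1 ((fun ρ : ℝ => ω * h (φ1 ρ)) 0) := by
    simp only [hφ10, h0, mul_zero]; exact hk
  have hd2 : HasDerivAt φ2 (ω * v) 0 := by
    have h1 := hk'.scomp (0 : ℝ) hd2a
    rw [smul_eq_mul, mul_one] at h1
    exact h1
  have hD1 := hD v (Or.inl rfl) φ1 hd1 hφ10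
  have hD2 := hD (ω * v) (Or.inr rfl) φ2 hd2 hφ20
  have hc1 : Tendsto φ1 (𝓝 0) (𝓝 ζ) := by
    have := hd1.continuousAt.tendsto
    rwa [hφ10] at this
  have hc2 : Tendsto φ2 (𝓝 0) (𝓝 ζ) := by
    have := hd2.continuousAt.tendsto
    rwa [hφ20] at this
  have hc3 : Tendsto (fun ρ : ℝ => ω * h (φ1 ρ)) (𝓝 0) (𝓝 0) := by
    have := hd2a.continuousAt.tendsto
    simpa [hφ10, h0] using this
  have e1 := (hc1.eventually (hF.and hroot)).filter_mono (nhdsWithin_le_nhds (s := Ioi (0 : ℝ)))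
  have e2 := (hc2.eventually (hF.and hroot)).filter_mono (nhdsWithin_le_nhds (s := Ioi (0 : ℝ)))
  have e3 := (hc3.eventually hinv).filter_mono (nhdsWithin_le_nhds (s := Ioi (0 : ℝ)))
  have heq : ∀ᶠ ρ in 𝓝[>] (0 : ℝ), φ2 ρ = φ1 ρ := by
    filter_upwards [hD1, hD2, e1, e2, e3] with ρ a1 a2 a3 a4 a5
    refine hinj a2 a1 ?_
    rw [a3.1, a3.2, a4.1, a4.2]
    have h5 : h (φ2 ρ) = ω * h (φ1 ρ) := a5
    rw [h5, mul_pow, hωm, one_mul]
  have hw1 : HasDerivWithinAt φ1 v (Ioi 0) 0 := hd1.hasDerivWithinAt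
  have hw2 : HasDerivWithinAt φ1 (ω * v) (Ioi 0) 0 :=
    hd2.hasDerivWithinAt.congr_of_eventuallyEq (heq.mono (fun ρ h => h.symm))
      (by rw [hφ10, hφ20])
  have hu : v = ω * v := (uniqueDiffWithinAt_Ioi (0 : ℝ)).eq_deriv _ hw1 hw2
  have : (ω - 1) * v = 0 := by linear_combination -hu
  rcases mul_eq_zero.mp this with h | h
  · exact hω1 (sub_eq_zero.mp h)
  · exact hv h

/-- interior points: order at most one -/
theorem order_interior {F : ℂ → ℂ} {ζ c : ℂ} {m : ℕ} {g : ℂ → ℂ} (hg : AnalyticAt ℂ g ζ)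
    (hg0 : g ζ ≠ 0) (hF : ∀ᶠ z in 𝓝 ζ, F z = c + (z - ζ) ^ m * g z) (D : Set ℂ)
    (hD : D ∈ 𝓝 ζ) (hinj : InjOn F D) : m ≤ 1 := by
  by_contra hm
  push Not at hm
  refine core hm hg hg0 hF D 1 one_ne_zero ?_ hinj
  intro w _ φ hφ h0
  have hc := hφ.continuousAt.tendsto
  rw [h0] at hc
  exact (hc.eventually hD).filter_mono nhdsWithin_le_nhds

/-- curves entering the disc -/
theorem enter {ζ w : ℂ} (hζ : ‖ζ‖ = 1) (hw : (w * (starRingEnd ℂ) ζ).re < 0) {φ : ℝ → ℂ}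
    (hφ : HasDerivAt φ w 0) (h0 : φ 0 = ζ) : ∀ᶠ ρ in 𝓝[>] (0 : ℝ), φ ρ ∈ Metric.ball (0 : ℂ) 1 := by
  have h1 : HasDerivAt (fun ρ => Complex.normSq (φ ρ)) (2 * (w * (starRingEnd ℂ) ζ).re) 0 := by
    have hre : HasDerivAt (fun ρ => (φ ρ).re) w.re 0 := by
      have := Complex.reCLM.hasFDerivAt.comp_hasDerivAt (0 : ℝ) hφ
      exact this
    have him : HasDerivAt (fun ρ => (φ ρ).im) w.im 0 := by
      have := Complex.imCLM.hasFDerivAt.comp_hasDerivAt (0 : ℝ) hφ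
      exact this
    have h2 := (hre.mul hre).add (him.mul him)
    rw [h0] at h2
    refine h2.congr_deriv ?_
    simp only [Complex.mul_re, Complex.conj_re, Complex.conj_im]
    ring
  have h3 := hasDerivAt_iff_tendsto_slope.mp h1
  have h4 : ∀ᶠ ρ in 𝓝[≠] (0 : ℝ), slope (fun ρ => Complex.normSq (φ ρ)) 0 ρ < 0 :=
    h3.eventually (gt_mem_nhds (by linarith))
  have h5 : ∀ᶠ ρ in 𝓝[>] (0 : ℝ), slope (fun ρ => Complex.normSq (φ ρ)) 0 ρ < 0 :=
    h4.filter_mono (nhdsWithin_mono _ (fun x hx => ne_of_gt hx))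
  filter_upwards [h5, self_mem_nhdsWithin] with ρ h6 h7
  have h7' : (0 : ℝ) < ρ := h7
  rw [slope_def_field, sub_zero, div_neg_iff] at h6
  rcases h6 with h6 | h6
  · linarith [h6.2]
  · rw [Metric.mem_ball, dist_zero_right]
    have h8 : Complex.normSq (φ ρ) < 1 := by
      have h9 : Complex.normSq (φ 0) = 1 := by
        rw [h0, Complex.normSq_eq_norm_sq, hζ]; norm_num
      have := h6.1
      rw [h9] at this
      linarith
    rw [Complex.normSq_eq_norm_sq] at h8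
    nlinarith [norm_nonneg (φ ρ)]

/-- boundary points: order at most two -/
theorem order_boundary {F : ℂ → ℂ} {ζ c : ℂ} {m : ℕ} {g : ℂ → ℂ} (hζ : ‖ζ‖ = 1)
    (hg : AnalyticAt ℂ g ζ)
    (hg0 : g ζ ≠ 0) (hF : ∀ᶠ z in 𝓝 ζ, F z = c + (z - ζ) ^ m * g z) (U : Set ℂ)
    (hU : U ∈ 𝓝 ζ) (hinj : InjOn F (U ∩ Metric.ball 0 1)) : m ≤ 2 := by
  by_contra hm
  push Not at hm
  have hζ0 : ζ ≠ 0 := by
    intro h; rw [h, norm_zero] at hζ; exact zero_ne_one hζ
  have hm0 : (m : ℂ) ≠ 0 := by exact_mod_cast (by omega : m ≠ 0)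
  have hmr : (3 : ℝ) ≤ m := by exact_mod_cast (by omega : 3 ≤ m)
  have hcos : 0 < Real.cos (Real.pi / m) := by
    apply Real.cos_pos_of_mem_Ioo
    constructor
    · have : 0 < Real.pi / m := by positivity
      linarith [Real.pi_pos]
    · rw [div_lt_div_iff₀ (by positivity) (by norm_num)]
      nlinarith [Real.pi_pos]
  have hζζ : ζ * (starRingEnd ℂ) ζ = 1 := by
    rw [Complex.mul_conj, Complex.normSq_eq_norm_sq, hζ]; norm_num
  set v : ℂ := -ζ * Complex.exp ((-(Real.pi / m) : ℝ) * I) with hv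
  refine core (by omega : 2 ≤ m) hg hg0 hF (U ∩ Metric.ball 0 1) v ?_ ?_ hinj
  · rw [hv]
    exact mul_ne_zero (neg_ne_zero.mpr hζ0) (Complex.exp_ne_zero _)
  · intro w hw φ hφ h0
    have hc := hφ.continuousAt.tendsto
    rw [h0] at hc
    have hUe : ∀ᶠ ρ in 𝓝[>] (0 : ℝ), φ ρ ∈ U := (hc.eventually hU).filter_mono nhdsWithin_le_nhds
    have hre : (w * (starRingEnd ℂ) ζ).re < 0 := by
      have key : ∀ x : ℝ, Real.cos x = Real.cos (Real.pi / m) →
          w = -ζ * Complex.exp ((x : ℝ) * I) → (w * (starRingEnd ℂ) ζ).re < 0 := by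
        intro x hx hwx
        have h1 : w * (starRingEnd ℂ) ζ = -Complex.exp ((x : ℝ) * I) := by
          rw [hwx]
          linear_combination (-Complex.exp ((x : ℝ) * I)) * hζζ
        rw [h1, Complex.neg_re, Complex.exp_ofReal_mul_I_re, hx]
        linarith
      rcases hw with hw | hw
      · exact key _ (Real.cos_neg _) (by rw [hw, hv])
      · refine key (Real.pi / m) rfl ?_
        rw [hw, hv]
        have h2 : Complex.exp (2 * Real.pi * I / m) * Complex.exp ((-(Real.pi / m) : ℝ) * I) =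
            Complex.exp ((Real.pi / m : ℝ) * I) := by
          rw [← Complex.exp_add]
          congr 1
          push_cast
          field_simp
          ring
        rw [← h2]
        ring
    filter_upwards [hUe, enter hζ hre hφ h0] with ρ h1 h2
    exact ⟨h1, h2⟩

end Vale.Agent.P142
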