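import Vale.Agent.P142.Int

/-! P142: change of variables -/

namespace Vale.Agent.P142

open Filter Topology Set Complex Metric MeasureTheory

theorem det_mul (a : ℂ) (A : ℂ →L[ℝ] ℂ) (hA : ∀ w, A w = w * a) : |A.det| = ‖a‖ ^ 2 := by
  have h1 : (A : ℂ →ₗ[ℝ] ℂ) = Algebra.lmul ℝ ℂ a := by
    ext w
    simp [hA, mul_comm]
  have h2 : A.det = Algebra.norm ℝ a := by
    rw [ContinuousLinearMap.det, h1]
    rfl
  rw [h2, Algebra.norm_complex_apply, Complex.normSq_eq_norm_sq, abs_of_nonneg (by positivity)]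

theorem deriv_inverse {f φ : ℂ → ℂ} (hd : DifferentiableOn ℂ f (ball 0 1))
    (hinj : InjOn f (ball 0 1)) (hφ : ∀ z ∈ ball (0 : ℂ) 1, φ (f z) = z) {z : ℂ}
    (hz : z ∈ ball (0 : ℂ) 1) : deriv φ (f z) = (deriv f z)⁻¹ := by
  have hnb : ball (0 : ℂ) 1 ∈ 𝓝 z := isOpen_ball.mem_nhds hz
  have hfa : AnalyticAt ℂ f z := hd.analyticAt hnb
  have h1 : ∀ᶠ x in 𝓝 z, φ (f x) = x := by
    filter_upwards [hnb] with x hx
    exact hφ x hx
  exact (hfa.hasStrictDerivAt.to_local_left_inverse (deriv_ne hd hinj hz) h1).hasDerivAt.deriv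

theorem brennan_domain {f φ : ℂ → ℂ} (hd : DifferentiableOn ℂ f (ball 0 1))
    (hinj : InjOn f (ball 0 1)) (hf : ∀ ζ : ℂ, ‖ζ‖ = 1 → MeromorphicAt f ζ)
    (hφ : ∀ z ∈ ball (0 : ℂ) 1, φ (f z) = z) {s : ℝ} (hs1 : 4 / 3 < s) (hs2 : s < 4) :
    IntegrableOn (fun w => ‖deriv φ w‖ ^ s) (f '' ball 0 1) := by
  have hda : ∀ z ∈ ball (0 : ℂ) 1, HasDerivAt f (deriv f z) z := fun z hz =>
    (hd.differentiableAt (isOpen_ball.mem_nhds hz)).hasDerivAt
  have hfd : ∀ z ∈ ball (0 : ℂ) 1, HasFDerivWithinAt f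
      ((ContinuousLinearMap.smulRight (1 : ℂ →L[ℂ] ℂ) (deriv f z)).restrictScalars ℝ)
      (ball 0 1) z := fun z hz => by
    have h1 : HasFDerivAt f (ContinuousLinearMap.smulRight (1 : ℂ →L[ℂ] ℂ) (deriv f z)) z :=
      (hda z hz).hasFDerivAt
    exact (h1.restrictScalars ℝ).hasFDerivWithinAt
  rw [integrableOn_image_iff_integrableOn_abs_det_fderiv_smul volume measurableSet_ball hfd hinj]
  have hint := brennan_meromorphic hd hinj hf (t := 2 - s) (by linarith) (by linarith)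
  refine hint.congr_fun ?_ measurableSet_ball
  intro z hz
  have hne : deriv f z ≠ 0 := deriv_ne hd hinj hz
  have hpos : 0 < ‖deriv f z‖ := norm_pos_iff.mpr hne
  show ‖deriv f z‖ ^ (2 - s) = _ • ‖deriv φ (f z)‖ ^ s
  rw [det_mul (deriv f z) _ (fun w => by simp), deriv_inverse hd hinj hφ hz, norm_inv,
    Real.inv_rpow hpos.le, smul_eq_mul, Real.rpow_sub hpos, Real.rpow_two, div_eq_mul_inv]

end Vale.Agent.P142
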