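import Vale.Agent.P142.Loc

/-! P142: integrability -/

namespace Vale.Agent.P142

open Filter Topology Set Complex Metric MeasureTheory

theorem int_pow (ζ : ℂ) {a r : ℝ} (ha : -2 < a) :
    IntegrableOn (fun z : ℂ => ‖z - ζ‖ ^ a) (ball ζ r) := by
  have h0 : IntegrableOn (fun x : ℂ => ‖x‖ ^ a) (ball 0 r) := by
    refine integrableOn_ball_of_norm_le_rpow (C := 1) (α := -a) (by
      rw [Complex.finrank_real_complex]; norm_num) (by
      rw [Complex.finrank_real_complex]; push_cast; linarith) ?_ ?_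
    · refine Eventually.of_forall (fun x => ?_)
      rw [neg_neg, one_mul, Real.norm_of_nonneg (Real.rpow_nonneg (norm_nonneg _) _)]
    · exact (measurable_norm.pow_const a).aestronglyMeasurable
  have h1 := ((measurePreserving_sub_right (volume : Measure ℂ) ζ).integrableOn_comp_preimage
    (Homeomorph.subRight ζ).measurableEmbedding (f := fun x : ℂ => ‖x‖ ^ a)
    (s := ball 0 r)).mpr h0
  refine (h1.mono_set ?_)
  intro z hz
  rw [mem_preimage, mem_ball, dist_zero_right]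
  rw [mem_ball, dist_eq_norm] at hz
  exact hz

theorem int_local {f : ℂ → ℂ} {ζ : ℂ} {k : ℤ} (hk1 : -3 ≤ k) (hk2 : k ≤ 1) {E : ℂ → ℂ}
    (hE : ContinuousAt E ζ) (hE0 : E ζ ≠ 0)
    (hform : ∀ᶠ z in 𝓝 ζ, z ∈ ball (0 : ℂ) 1 → deriv f z = (z - ζ) ^ k * E z) {t : ℝ}
    (ht1 : -2 < t) (ht2 : t < 2 / 3) :
    ∃ r > 0, IntegrableOn (fun z => ‖deriv f z‖ ^ t) (ball ζ r ∩ ball 0 1) := by
  have hc : ContinuousAt (fun z => ‖E z‖ ^ t) ζ :=
    hE.norm.rpow_const (Or.inl (norm_ne_zero_iff.mpr hE0))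
  have hb : ∀ᶠ z in 𝓝 ζ, ‖E z‖ ^ t < ‖E ζ‖ ^ t + 1 :=
    hc.eventually (gt_mem_nhds (by linarith))
  obtain ⟨r, hr, hsub⟩ := Metric.eventually_nhds_iff_ball.mp (hb.and hform)
  have ha : -2 < (k : ℝ) * t := by
    have h1 : (-3 : ℝ) ≤ k := by exact_mod_cast hk1
    have h2 : (k : ℝ) ≤ 1 := by exact_mod_cast hk2
    rcases le_or_gt 0 t with h | h
    · nlinarith
    · nlinarith
  refine ⟨r, hr, ?_⟩
  have hint : IntegrableOn (fun z : ℂ => (‖E ζ‖ ^ t + 1) * ‖z - ζ‖ ^ ((k : ℝ) * t))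
      (ball ζ r ∩ ball 0 1) := by
    have h5 : IntegrableOn (fun z : ℂ => (‖E ζ‖ ^ t + 1) * ‖z - ζ‖ ^ ((k : ℝ) * t)) (ball ζ r) :=
      Integrable.const_mul (int_pow ζ ha (r := r)) _
    exact h5.mono_set inter_subset_left
  refine Integrable.mono' hint ?_ ?_
  · exact ((measurable_deriv f).norm.pow_const t).aestronglyMeasurable
  · refine (ae_restrict_mem (measurableSet_ball.inter measurableSet_ball)).mono ?_
    rintro z ⟨hz1, hz2⟩
    obtain ⟨h1, h2⟩ := hsub z hz1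
    rw [Real.norm_of_nonneg (Real.rpow_nonneg (norm_nonneg _) _), h2 hz2, norm_mul, norm_zpow,
      Real.mul_rpow (zpow_nonneg (norm_nonneg _) _) (norm_nonneg _), ← Real.rpow_intCast,
      ← Real.rpow_mul (norm_nonneg _), mul_comm]
    exact mul_le_mul_of_nonneg_right h1.le (Real.rpow_nonneg (norm_nonneg _) _)

theorem brennan_meromorphic {f : ℂ → ℂ} (hd : DifferentiableOn ℂ f (ball 0 1))
    (hinj : InjOn f (ball 0 1)) (hf : ∀ ζ : ℂ, ‖ζ‖ = 1 → MeromorphicAt f ζ) {t : ℝ}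
    (ht1 : -2 < t) (ht2 : t < 2 / 3) :
    IntegrableOn (fun z => ‖deriv f z‖ ^ t) (ball 0 1) := by
  have hloc : ∀ ζ ∈ closedBall (0 : ℂ) 1, ∃ r > 0,
      IntegrableOn (fun z => ‖deriv f z‖ ^ t) (ball ζ r ∩ ball 0 1) := by
    intro ζ hζ
    rw [mem_closedBall, dist_zero_right] at hζ
    rcases hζ.lt_or_eq with h | h
    · have hζ' : ζ ∈ ball (0 : ℂ) 1 := by rw [mem_ball, dist_zero_right]; exact h
      have hfa : AnalyticAt ℂ f ζ := hd.analyticAt (isOpen_ball.mem_nhds hζ')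
      refine int_local (k := 0) (by norm_num) (by norm_num) hfa.deriv.continuousAt
        (deriv_ne hd hinj hζ') ?_ ht1 ht2
      refine Eventually.of_forall (fun z _ => ?_)
      rw [zpow_zero, one_mul]
    · obtain ⟨k, hk1, hk2, E, hE, hE0, hform⟩ := local_form hinj h (hf ζ h)
      exact int_local hk1 hk2 hE hE0 hform ht1 ht2
  choose! r hr hI using hloc
  obtain ⟨s, hs1, hs2⟩ := (isCompact_closedBall (0 : ℂ) 1).elim_nhds_subcover
    (fun ζ => ball ζ (r ζ)) (fun ζ hζ => ball_mem_nhds ζ (hr ζ hζ))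
  have h1 : IntegrableOn (fun z => ‖deriv f z‖ ^ t) (⋃ ζ ∈ s, (ball ζ (r ζ) ∩ ball 0 1)) := by
    rw [integrableOn_finset_iUnion]
    intro ζ hζ
    exact hI ζ (hs1 ζ hζ)
  refine h1.mono_set ?_
  intro z hz
  have hz' := hs2 (ball_subset_closedBall hz)
  simp only [mem_iUnion] at hz' ⊢
  obtain ⟨ζ, hζ, hzz⟩ := hz'
  exact ⟨ζ, hζ, hzz, hz⟩

end Vale.Agent.P142
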