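import Mathlib

/-! P142: from bounds on the integral means to the upper exponent -/

namespace Vale.Agent.P142

open Filter Topology Set

theorem limsup_means {M : ℝ → ℝ} {C a : ℝ} (ha : 0 ≤ a)
    (hM0 : ∀ r, 0 < r → r < 1 → 0 ≤ M r)
    (hM : ∀ r, 0 < r → r < 1 → M r ≤ C * (1 / (1 - r)) ^ a) :
    limsup (fun r : ℝ => ((Real.log (M r) / Real.log (1 / (1 - r)) : ℝ) : EReal)) (𝓝[<] 1) ≤
      ((a : ℝ) : EReal) := by
  set C' : ℝ := max C 1 with hC'
  have hC1 : 1 ≤ C' := le_max_right _ _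
  have hL : Tendsto (fun r : ℝ => Real.log (1 / (1 - r))) (𝓝[<] 1) atTop := by
    have h1 : Tendsto (fun r : ℝ => 1 - r) (𝓝[<] 1) (𝓝[>] 0) := by
      rw [tendsto_nhdsWithin_iff]
      constructor
      · have : Tendsto (fun r : ℝ => 1 - r) (𝓝 1) (𝓝 (1 - 1)) :=
          (continuous_const.sub continuous_id).tendsto 1
        rw [sub_self] at this
        exact this.mono_left nhdsWithin_le_nhds
      · filter_upwards [self_mem_nhdsWithin] with r hr
        have : r < 1 := hr
        show 0 < 1 - r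
        linarith
    have h2 : Tendsto (fun r : ℝ => (1 - r)⁻¹) (𝓝[<] 1) atTop := tendsto_inv_nhdsGT_zero.comp h1
    have h3 := Real.tendsto_log_atTop.comp h2
    refine h3.congr (fun r => ?_)
    simp [Function.comp, one_div]
  have hlim : Tendsto (fun r : ℝ => (((Real.log C' / Real.log (1 / (1 - r)) + a : ℝ)) : EReal))
      (𝓝[<] 1) (𝓝 ((a : ℝ) : EReal)) := by
    rw [EReal.tendsto_coe]
    have := (tendsto_const_nhds (x := Real.log C')).div_atTop hL
    simpa using this.add_const a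
  rw [← hlim.limsup_eq]
  refine limsup_le_limsup ?_
  have hmem : ∀ᶠ r : ℝ in 𝓝[<] 1, r ∈ Ioo (0 : ℝ) 1 := Ioo_mem_nhdsLT one_pos
  filter_upwards [hmem, hL.eventually (eventually_gt_atTop 0)] with r hr hLr
  obtain ⟨hr0, hr1⟩ := hr
  rw [EReal.coe_le_coe_iff]
  have hX : 0 < 1 / (1 - r) := by
    have : 0 < 1 - r := by linarith
    positivity
  have hXa : 0 < (1 / (1 - r)) ^ a := Real.rpow_pos_of_pos hX a
  have h1 : Real.log (M r) ≤ Real.log C' + a * Real.log (1 / (1 - r)) := by
    rcases (hM0 r hr0 hr1).eq_or_lt with h | h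
    · rw [← h, Real.log_zero]
      have := Real.log_nonneg hC1
      positivity
    · have h2 : M r ≤ C' * (1 / (1 - r)) ^ a :=
        (hM r hr0 hr1).trans (mul_le_mul_of_nonneg_right (le_max_left _ _) hXa.le)
      have h3 := Real.log_le_log h h2
      rwa [Real.log_mul (by positivity) hXa.ne', Real.log_rpow hX] at h3
  rw [div_le_iff₀ hLr, add_mul, div_mul_cancel₀ _ hLr.ne']
  exact h1

end Vale.Agent.P142
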