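import Vale.Agent.P142.Core

/-! P142: the local form of the derivative near a point of the closed disc -/

namespace Vale.Agent.P142

open Filter Topology Set Complex Metric

theorem two_points {ζ : ℂ} (hζ : ‖ζ‖ = 1) {P : ℂ → Prop} (h : ∀ᶠ z in 𝓝 ζ, P z) :
    ∃ z1 ∈ ball (0 : ℂ) 1, ∃ z2 ∈ ball (0 : ℂ) 1, z1 ≠ z2 ∧ P z1 ∧ P z2 := by
  set φ : ℝ → ℂ := fun ρ => ζ + ρ * (-ζ) with hφdef
  have hζζ : ζ * (starRingEnd ℂ) ζ = 1 := by
    rw [Complex.mul_conj, Complex.normSq_eq_norm_sq, hζ]; norm_num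
  have hd : HasDerivAt φ (-ζ) 0 := by
    have h1 : HasDerivAt (fun ρ : ℝ => (ρ : ℂ)) 1 0 := Complex.ofRealCLM.hasDerivAt
    have h2 := (h1.mul_const (-ζ)).const_add ζ
    rw [one_mul] at h2
    exact h2
  have h0 : φ 0 = ζ := by simp [hφdef]
  have hre : (-ζ * (starRingEnd ℂ) ζ).re < 0 := by
    rw [neg_mul, hζζ]; simp
  have h1 := enter hζ hre hd h0
  have hc := hd.continuousAt.tendsto
  rw [h0] at hc
  have h2 : ∀ᶠ ρ in 𝓝[>] (0 : ℝ), P (φ ρ) := (hc.eventually h).filter_mono nhdsWithin_le_nhds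
  obtain ⟨ε, hε, hsub⟩ := (mem_nhdsGT_iff_exists_Ioo_subset).mp (h1.and h2)
  have hε' : (0 : ℝ) < ε := hε
  have a1 := hsub (show ε / 2 ∈ Ioo 0 ε from ⟨by linarith, by linarith⟩)
  have a2 := hsub (show ε / 3 ∈ Ioo 0 ε from ⟨by linarith, by linarith⟩)
  refine ⟨_, a1.1, _, a2.1, ?_, a1.2, a2.2⟩
  intro heq
  have hζ0 : ζ ≠ 0 := by
    intro h; rw [h, norm_zero] at hζ; exact zero_ne_one hζ
  have h3 : ((ε / 2 : ℝ) : ℂ) * (-ζ) = ((ε / 3 : ℝ) : ℂ) * (-ζ) := by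
    have : ζ + ((ε / 2 : ℝ) : ℂ) * (-ζ) = ζ + ((ε / 3 : ℝ) : ℂ) * (-ζ) := heq
    exact add_left_cancel this
  have h4 := mul_right_cancel₀ (neg_ne_zero.mpr hζ0) h3
  have h5 : ε / 2 = ε / 3 := by exact_mod_cast h4
  linarith

theorem not_mem_ball {ζ : ℂ} (hζ : ‖ζ‖ = 1) {z : ℂ} (hz : z ∈ ball (0 : ℂ) 1) : z ≠ ζ := by
  rintro rfl
  rw [mem_ball, dist_zero_right, hζ] at hz
  exact lt_irrefl _ hz

/-- local form of the derivative at a boundary point -/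
theorem local_form {f : ℂ → ℂ} (hinj : InjOn f (ball 0 1)) {ζ : ℂ} (hζ : ‖ζ‖ = 1)
    (hf : MeromorphicAt f ζ) :
    ∃ k : ℤ, -3 ≤ k ∧ k ≤ 1 ∧ ∃ E : ℂ → ℂ, ContinuousAt E ζ ∧ E ζ ≠ 0 ∧
      ∀ᶠ z in 𝓝 ζ, z ∈ ball (0 : ℂ) 1 → deriv f z = (z - ζ) ^ k * E z := by
  obtain ⟨n, hn⟩ := hf
  have hnz : ¬ ∀ᶠ z in 𝓝 ζ, (z - ζ) ^ n • f z = 0 := by
    intro h
    obtain ⟨z1, h1, z2, h2, h12, p1, p2⟩ := two_points hζ h
    have q1 : f z1 = 0 := by
      rcases smul_eq_zero.mp p1 with h | h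
      · exact absurd h (pow_ne_zero n (sub_ne_zero.mpr (not_mem_ball hζ h1)))
      · exact h
    have q2 : f z2 = 0 := by
      rcases smul_eq_zero.mp p2 with h | h
      · exact absurd h (pow_ne_zero n (sub_ne_zero.mpr (not_mem_ball hζ h2)))
      · exact h
    exact h12 (hinj h1 h2 (q1.trans q2.symm))
  obtain ⟨p, G, hG, hG0, hHG⟩ := (hn.exists_eventuallyEq_pow_smul_nonzero_iff).mpr hnz
  have hHG2 := hHG.eventually_nhds
  have hGa := hG.eventually_analyticAt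
  have hGne : ∀ᶠ z in 𝓝 ζ, G z ≠ 0 := hG.continuousAt.eventually_ne hG0
  rcases lt_or_ge p n with hpn | hpn
  · -- a pole
    obtain ⟨m, hm⟩ : ∃ m, n = p + m := ⟨n - p, by omega⟩
    have hm1 : 1 ≤ m := by omega
    have hfG : ∀ z, z ≠ ζ → (z - ζ) ^ n • f z = (z - ζ) ^ p • G z →
        f z = G z * ((z - ζ) ^ m)⁻¹ := by
      intro z hz h
      have hz' : z - ζ ≠ 0 := sub_ne_zero.mpr hz
      rw [hm, pow_add, smul_eq_mul, smul_eq_mul, mul_assoc] at h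
      have h1 := mul_left_cancel₀ (pow_ne_zero p hz') h
      rw [← h1]
      field_simp
    have hGinv : AnalyticAt ℂ (fun z => (G z)⁻¹) ζ := hG.inv hG0
    have hm2 : m ≤ 2 := by
      refine order_boundary (F := fun z => 0 + (z - ζ) ^ m * (G z)⁻¹) (c := 0) hζ hGinv
        (inv_ne_zero hG0) (Eventually.of_forall (fun z => rfl)) {z | (z - ζ) ^ n • f z =
          (z - ζ) ^ p • G z ∧ G z ≠ 0} (hHG.and hGne) ?_
      rintro z1 ⟨⟨a1, b1⟩, c1⟩ z2 ⟨⟨a2, b2⟩, c2⟩ h12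
      have e1 := hfG z1 (not_mem_ball hζ c1) a1
      have e2 := hfG z2 (not_mem_ball hζ c2) a2
      refine hinj c1 c2 ?_
      rw [e1, e2]
      have h3 : ((z1 - ζ) ^ m * (G z1)⁻¹)⁻¹ = ((z2 - ζ) ^ m * (G z2)⁻¹)⁻¹ := by
        have h12' : 0 + (z1 - ζ) ^ m * (G z1)⁻¹ = 0 + (z2 - ζ) ^ m * (G z2)⁻¹ := h12
        rw [zero_add, zero_add] at h12'
        rw [h12']
      rw [mul_inv, mul_inv, inv_inv, inv_inv] at h3
      rw [mul_comm (G z1), mul_comm (G z2)]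
      exact h3
    refine ⟨-((m : ℤ) + 1), by omega, by omega, fun z => (z - ζ) * deriv G z - m * G z, ?_, ?_, ?_⟩
    · exact ((continuousAt_id.sub continuousAt_const).mul hG.deriv.continuousAt).sub
        (continuousAt_const.mul hG.continuousAt)
    · simp only [sub_self, zero_mul, zero_sub]
      exact neg_ne_zero.mpr (mul_ne_zero (by exact_mod_cast (by omega : m ≠ 0)) hG0)
    · filter_upwards [hHG2, hGa] with z h1 h2 h3
      have hz : z ≠ ζ := not_mem_ball hζ h3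
      have hz' : z - ζ ≠ 0 := sub_ne_zero.mpr hz
      have heq : f =ᶠ[𝓝 z] fun w => G w * ((w - ζ) ^ m)⁻¹ := by
        filter_upwards [h1, isOpen_ne.mem_nhds hz] with w hw1 hw2
        exact hfG w hw2 hw1
      have hdp : HasDerivAt (fun w : ℂ => (w - ζ) ^ m) ((m : ℂ) * (z - ζ) ^ (m - 1) * 1) z :=
        ((hasDerivAt_id z).sub_const ζ).pow m
      have hd := h2.differentiableAt.hasDerivAt.mul (hdp.inv (pow_ne_zero m hz'))
      rw [heq.deriv_eq]
      have hd' : deriv (fun w => G w * ((w - ζ) ^ m)⁻¹) z = deriv G z * ((z - ζ) ^ m)⁻¹ +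
          G z * (-((m : ℂ) * (z - ζ) ^ (m - 1) * 1) / ((z - ζ) ^ m) ^ 2) := hd.deriv
      rw [hd', zpow_neg, zpow_add₀ hz', zpow_natCast, zpow_one]
      obtain ⟨j, hj⟩ : ∃ j, m = j + 1 := ⟨m - 1, by omega⟩
      rw [hj, Nat.add_sub_cancel]
      push_cast
      field_simp
      ring
  · -- analytic continuation
    obtain ⟨j, hj⟩ : ∃ j, p = n + j := ⟨p - n, by omega⟩
    set F : ℂ → ℂ := fun z => (z - ζ) ^ j * G z with hFdef
    have hFa : AnalyticAt ℂ F ζ :=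
      ((analyticAt_id.sub analyticAt_const).pow j).mul hG
    have hfF : ∀ z, z ≠ ζ → (z - ζ) ^ n • f z = (z - ζ) ^ p • G z → f z = F z := by
      intro z hz h
      have hz' : z - ζ ≠ 0 := sub_ne_zero.mpr hz
      rw [hj, pow_add, smul_eq_mul, smul_eq_mul, mul_assoc] at h
      exact mul_left_cancel₀ (pow_ne_zero n hz') h
    have hne : ¬ ∀ᶠ z in 𝓝 ζ, F z - F ζ = 0 := by
      intro h
      obtain ⟨z1, h1, z2, h2, h12, p1, p2⟩ := two_points hζ (h.and hHG)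
      have e1 := hfF z1 (not_mem_ball hζ h1) p1.2
      have e2 := hfF z2 (not_mem_ball hζ h2) p2.2
      refine h12 (hinj h1 h2 ?_)
      rw [e1, e2, sub_eq_zero.mp p1.1, sub_eq_zero.mp p2.1]
    have hFs : AnalyticAt ℂ (fun z => F z - F ζ) ζ := hFa.sub analyticAt_const
    obtain ⟨m, g, hg, hg0, hgF⟩ := (hFs.exists_eventuallyEq_pow_smul_nonzero_iff).mpr hne
    have hm1 : 1 ≤ m := by
      by_contra hm
      have hm0 : m = 0 := by omega
      have h1 := hgF.self_of_nhds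
      rw [hm0, pow_zero, one_smul, sub_self] at h1
      exact hg0 h1.symm
    have hgF' : ∀ᶠ z in 𝓝 ζ, F z = F ζ + (z - ζ) ^ m * g z := by
      filter_upwards [hgF] with z hz
      rw [smul_eq_mul] at hz
      linear_combination hz
    have hm2 : m ≤ 2 := by
      refine order_boundary hζ hg hg0 hgF' {z | (z - ζ) ^ n • f z = (z - ζ) ^ p • G z} hHG ?_
      rintro z1 ⟨a1, c1⟩ z2 ⟨a2, c2⟩ h12
      have e1 := hfF z1 (not_mem_ball hζ c1) a1
      have e2 := hfF z2 (not_mem_ball hζ c2) a2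
      exact hinj c1 c2 (by rw [e1, e2]; exact h12)
    refine ⟨(m : ℤ) - 1, by omega, by omega, fun z => m * g z + (z - ζ) * deriv g z, ?_, ?_, ?_⟩
    · exact (continuousAt_const.mul hg.continuousAt).add
        ((continuousAt_id.sub continuousAt_const).mul hg.deriv.continuousAt)
    · simp only [sub_self, zero_mul, add_zero]
      exact mul_ne_zero (by exact_mod_cast (by omega : m ≠ 0)) hg0
    · filter_upwards [hHG2, hgF'.eventually_nhds, hg.eventually_analyticAt] with z h1 h2 h4 h3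
      have hz : z ≠ ζ := not_mem_ball hζ h3
      have hz' : z - ζ ≠ 0 := sub_ne_zero.mpr hz
      have heq : f =ᶠ[𝓝 z] fun w => F ζ + (w - ζ) ^ m * g w := by
        filter_upwards [h1, h2, isOpen_ne.mem_nhds hz] with w hw1 hw2 hw3
        rw [hfF w hw3 hw1, hw2]
      have hdp : HasDerivAt (fun w : ℂ => (w - ζ) ^ m) ((m : ℂ) * (z - ζ) ^ (m - 1) * 1) z :=
        ((hasDerivAt_id z).sub_const ζ).pow m
      have hd := (hdp.mul h4.differentiableAt.hasDerivAt).const_add (F ζ)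
      rw [heq.deriv_eq]
      have hd' : deriv (fun w => F ζ + (w - ζ) ^ m * g w) z =
          (m : ℂ) * (z - ζ) ^ (m - 1) * 1 * g z + (z - ζ) ^ m * deriv g z := hd.deriv
      rw [hd']
      obtain ⟨i, hi⟩ : ∃ i, m = i + 1 := ⟨m - 1, by omega⟩
      rw [hi, Nat.add_sub_cancel]
      have hcast : (((i + 1 : ℕ) : ℤ) - 1) = (i : ℤ) := by push_cast; ring
      rw [hcast, zpow_natCast]
      ring

/-- the derivative does not vanish inside -/
theorem deriv_ne {f : ℂ → ℂ} (hd : DifferentiableOn ℂ f (ball 0 1)) (hinj : InjOn f (ball 0 1))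
    {ζ : ℂ} (hζ : ζ ∈ ball (0 : ℂ) 1) : deriv f ζ ≠ 0 := by
  have hnb : ball (0 : ℂ) 1 ∈ 𝓝 ζ := isOpen_ball.mem_nhds hζ
  have hfa : AnalyticAt ℂ f ζ := hd.analyticAt hnb
  have hFs : AnalyticAt ℂ (fun z => f z - f ζ) ζ := hfa.sub analyticAt_const
  have hne : ¬ ∀ᶠ z in 𝓝 ζ, f z - f ζ = 0 := by
    intro h
    have h1 : ∀ᶠ z in 𝓝 ζ, z = ζ := by
      filter_upwards [h, hnb] with z hz1 hz2
      exact hinj hz2 hζ (sub_eq_zero.mp hz1)
    have h2 : ∀ᶠ z in 𝓝[≠] ζ, z = ζ := h1.filter_mono nhdsWithin_le_nhds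
    have h3 : ∀ᶠ z in 𝓝[≠] ζ, False := by
      filter_upwards [h2, self_mem_nhdsWithin] with z hz1 hz2
      exact hz2 hz1
    exact (h3.exists).elim (fun _ h => h)
  obtain ⟨m, g, hg, hg0, hgF⟩ := (hFs.exists_eventuallyEq_pow_smul_nonzero_iff).mpr hne
  have hm1 : 1 ≤ m := by
    by_contra hm
    have hm0 : m = 0 := by omega
    have h1 := hgF.self_of_nhds
    rw [hm0, pow_zero, one_smul, sub_self] at h1
    exact hg0 h1.symm
  have hgF' : ∀ᶠ z in 𝓝 ζ, f z = f ζ + (z - ζ) ^ m * g z := by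
    filter_upwards [hgF] with z hz
    rw [smul_eq_mul] at hz
    linear_combination hz
  have hm2 := order_interior hg hg0 hgF' (ball 0 1) hnb hinj
  have hm : m = 1 := by omega
  rw [hm] at hgF'
  have heq : f =ᶠ[𝓝 ζ] fun w => f ζ + (w - ζ) ^ 1 * g w := hgF'
  rw [heq.deriv_eq]
  have hdp : HasDerivAt (fun w : ℂ => (w - ζ) ^ 1)
      (((1 : ℕ) : ℂ) * (ζ - ζ) ^ (1 - 1) * 1) ζ :=
    ((hasDerivAt_id ζ).sub_const ζ).pow 1
  have hd := (hdp.mul hg.differentiableAt.hasDerivAt).const_add (f ζ)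
  have hd' : deriv (fun w => f ζ + (w - ζ) ^ 1 * g w) ζ =
      ((1 : ℕ) : ℂ) * (ζ - ζ) ^ (1 - 1) * 1 * g ζ + (ζ - ζ) ^ 1 * deriv g ζ := hd.deriv
  rw [hd']
  simpa using hg0

end Vale.Agent.P142
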