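import Mathlib

/-! P142: the Poisson integral -/

namespace Vale.Agent.P142

open Filter Topology Set Complex Metric MeasureTheory

theorem poisson {ζ : ℂ} (hζ : ‖ζ‖ = 1) {r : ℝ} (hr0 : 0 < r) (hr1 : r < 1) :
    ∫ θ in (0 : ℝ)..2 * Real.pi, (‖ζ - circleMap 0 r θ‖ ^ 2)⁻¹ = 2 * Real.pi / (1 - r ^ 2) := by
  have hζ0 : ζ ≠ 0 := by
    intro h; rw [h, norm_zero] at hζ; exact zero_ne_one hζ
  have hζζ : ζ * (starRingEnd ℂ) ζ = 1 := by
    rw [Complex.mul_conj, Complex.normSq_eq_norm_sq, hζ]; norm_num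
  have hc0 : (starRingEnd ℂ) ζ ≠ 0 := right_ne_zero_of_mul_eq_one hζζ
  have hr2 : r ^ 2 < 1 := by nlinarith
  have hd : DifferentiableOn ℂ (fun z => (ζ - z)⁻¹) (closedBall 0 r) := by
    intro z hz
    rw [mem_closedBall, dist_zero_right] at hz
    have hne : ζ - z ≠ 0 := by
      intro h
      rw [sub_eq_zero] at h
      rw [← h, hζ] at hz
      linarith
    exact ((differentiableAt_id.const_sub ζ).inv hne).differentiableWithinAt
  have hw : (r : ℂ) ^ 2 * ζ ∈ ball (0 : ℂ) r := by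
    rw [mem_ball, dist_zero_right, norm_mul, hζ, mul_one, norm_pow, Complex.norm_real,
      Real.norm_of_nonneg hr0.le]
    nlinarith
  have h := hd.circleIntegral_sub_inv_smul hw
  rw [circleIntegral] at h
  have hint : ∀ θ : ℝ, deriv (circleMap 0 r) θ • (circleMap 0 r θ - (r : ℂ) ^ 2 * ζ)⁻¹ •
      (ζ - circleMap 0 r θ)⁻¹ =
      (I * (starRingEnd ℂ) ζ) * (((‖ζ - circleMap 0 r θ‖ ^ 2)⁻¹ : ℝ) : ℂ) := by
    intro θ
    rw [deriv_circleMap]
    set z := circleMap 0 r θ with hz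
    have hzn : ‖z‖ = r := by rw [hz, norm_circleMap_zero, abs_of_pos hr0]
    have hz0 : z ≠ 0 := by
      intro h; rw [h, norm_zero] at hzn; linarith
    have hzz : z * (starRingEnd ℂ) z = (r : ℂ) ^ 2 := by
      rw [Complex.mul_conj, Complex.normSq_eq_norm_sq, hzn]; push_cast; ring
    have hne : ζ - z ≠ 0 := by
      intro h
      rw [sub_eq_zero] at h
      rw [← h, hζ] at hzn
      linarith
    have hne2 : (starRingEnd ℂ) ζ - (starRingEnd ℂ) z ≠ 0 := by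
      rw [← map_sub]
      exact (map_ne_zero _).mpr hne
    have h1 : (((‖ζ - z‖ ^ 2)⁻¹ : ℝ) : ℂ) =
        ((ζ - z) * ((starRingEnd ℂ) ζ - (starRingEnd ℂ) z))⁻¹ := by
      rw [← map_sub, Complex.mul_conj, Complex.normSq_eq_norm_sq]
      push_cast
      rfl
    have h2 : z - (r : ℂ) ^ 2 * ζ = z * ζ * ((starRingEnd ℂ) ζ - (starRingEnd ℂ) z) := by
      rw [← hzz]
      linear_combination (-z) * hζζ
    rw [h1, h2, smul_eq_mul, smul_eq_mul, mul_inv, mul_inv, mul_inv]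
    have h3 : ζ⁻¹ = (starRingEnd ℂ) ζ := inv_eq_of_mul_eq_one_right hζζ
    rw [h3]
    field_simp
  simp only [hint] at h
  rw [intervalIntegral.integral_const_mul, intervalIntegral.integral_ofReal] at h
  have h4 : ((∫ θ in (0 : ℝ)..2 * Real.pi, (‖ζ - circleMap 0 r θ‖ ^ 2)⁻¹ : ℝ) : ℂ) =
      ((2 * Real.pi / (1 - r ^ 2) : ℝ) : ℂ) := by
    have h5 : I * (starRingEnd ℂ) ζ ≠ 0 := mul_ne_zero I_ne_zero hc0
    apply mul_left_cancel₀ h5
    rw [h, smul_eq_mul]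
    have h6 : ζ - (r : ℂ) ^ 2 * ζ = ζ * (1 - (r : ℂ) ^ 2) := by ring
    have h7 : (1 - (r : ℂ) ^ 2) ≠ 0 := by
      have : (((1 - r ^ 2 : ℝ)) : ℂ) ≠ 0 := by
        exact_mod_cast (by linarith : (1 - r ^ 2 : ℝ) ≠ 0)
      push_cast at this
      exact this
    have h3 : ζ⁻¹ = (starRingEnd ℂ) ζ := inv_eq_of_mul_eq_one_right hζζ
    rw [h6, mul_inv, h3]
    push_cast
    field_simp
  exact_mod_cast h4

theorem poisson' {ζ : ℂ} (hζ : ‖ζ‖ = 1) {r : ℝ} (hr0 : 0 < r) (hr1 : r < 1) :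
    ∫ θ in (-Real.pi)..Real.pi, (‖ζ - r * Complex.exp (θ * I)‖ ^ 2)⁻¹ =
      2 * Real.pi / (1 - r ^ 2) := by
  rw [← poisson hζ hr0 hr1]
  have hp : Function.Periodic (fun θ : ℝ => (‖ζ - circleMap 0 r θ‖ ^ 2)⁻¹) (2 * Real.pi) := by
    intro θ
    simp only [periodic_circleMap 0 r θ]
  have h1 := hp.intervalIntegral_add_eq (-Real.pi) 0
  have e1 : -Real.pi + 2 * Real.pi = Real.pi := by ring
  rw [e1, zero_add] at h1
  rw [← h1]
  simp only [circleMap, zero_add]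

end Vale.Agent.P142
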