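import Vale.Agent.P142.Int
import Vale.Agent.P142.Poi

/-! P142: integral means -/

namespace Vale.Agent.P142

open Filter Topology Set Complex Metric MeasureTheory

/-- lower bound for the derivative near a point of the closed disc -/
theorem lower_local {f : ℂ → ℂ} {ζ : ℂ} {k : ℤ} (hk2 : k ≤ 1) {E : ℂ → ℂ}
    (hE : ContinuousAt E ζ) (hE0 : E ζ ≠ 0)
    (hform : ∀ᶠ z in 𝓝 ζ, z ∈ ball (0 : ℂ) 1 → deriv f z = (z - ζ) ^ k * E z)
    (hζ : ‖ζ‖ = 1) :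
    ∃ r > 0, ∃ e > 0, ∀ z ∈ ball ζ r ∩ ball 0 1, e * ‖ζ - z‖ ≤ ‖deriv f z‖ := by
  have he : 0 < ‖E ζ‖ := norm_pos_iff.mpr hE0
  have hb : ∀ᶠ z in 𝓝 ζ, ‖E ζ‖ / 2 < ‖E z‖ :=
    hE.norm.eventually (lt_mem_nhds (by linarith))
  obtain ⟨r, hr, hsub⟩ := Metric.eventually_nhds_iff_ball.mp (hb.and hform)
  refine ⟨min r 1, lt_min hr one_pos, ‖E ζ‖ / 2, by linarith, ?_⟩
  rintro z ⟨hz1, hz2⟩
  have hz1r : z ∈ ball ζ r := ball_subset_ball (min_le_left _ _) hz1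
  have hz11 : z ∈ ball ζ 1 := ball_subset_ball (min_le_right _ _) hz1
  obtain ⟨h1, h2⟩ := hsub z hz1r
  have hne : z ≠ ζ := not_mem_ball hζ hz2
  have hpos : 0 < ‖z - ζ‖ := norm_pos_iff.mpr (sub_ne_zero.mpr hne)
  have hle : ‖z - ζ‖ ≤ 1 := by
    rw [mem_ball, dist_eq_norm] at hz11
    exact hz11.le
  rw [h2 hz2, norm_mul, norm_zpow, norm_sub_rev ζ z, mul_comm]
  have h3 : ‖z - ζ‖ ≤ ‖z - ζ‖ ^ k := by
    have := zpow_le_zpow_right_of_le_one₀ hpos hle hk2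
    rwa [zpow_one] at this
  exact mul_le_mul h3 h1.le (by linarith) (zpow_nonneg hpos.le _)

theorem dist_bdry {ζ : ℂ} (hζ : ‖ζ‖ = 1) (z : ℂ) : 1 - ‖z‖ ≤ ‖ζ - z‖ := by
  have := norm_sub_norm_le ζ z
  rwa [hζ] at this

/-- pointwise bound for the powers -/
theorem pow_local {f : ℂ → ℂ} {ζ : ℂ} {r e : ℝ} (he : 0 < e) (hζ : ‖ζ‖ = 1)
    (hb : ∀ z ∈ ball ζ r ∩ ball 0 1, e * ‖ζ - z‖ ≤ ‖deriv f z‖) {t : ℝ} (ht : t ≤ -2) {z : ℂ}
    (hz : z ∈ ball ζ r ∩ ball 0 1) :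
    ‖deriv f z‖ ^ t ≤ e ^ t * ((1 - ‖z‖) ^ (t + 2) * (‖ζ - z‖ ^ 2)⁻¹) := by
  have hz1 : ‖z‖ < 1 := by
    have := hz.2
    rwa [mem_ball, dist_zero_right] at this
  have hd := dist_bdry hζ z
  have hd0 : 0 < ‖ζ - z‖ := by linarith
  have h1 : ‖deriv f z‖ ^ t ≤ (e * ‖ζ - z‖) ^ t :=
    Real.rpow_le_rpow_of_nonpos (by positivity) (hb z hz) (by linarith)
  refine h1.trans ?_
  rw [Real.mul_rpow he.le hd0.le]
  refine mul_le_mul_of_nonneg_left ?_ (Real.rpow_nonneg he.le _)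
  have h2 : ‖ζ - z‖ ^ t = ‖ζ - z‖ ^ (t + 2) * (‖ζ - z‖ ^ 2)⁻¹ := by
    rw [← Real.rpow_natCast, ← Real.rpow_neg hd0.le, ← Real.rpow_add hd0]
    congr 1
    push_cast
    ring
  rw [h2]
  refine mul_le_mul_of_nonneg_right ?_ (by positivity)
  exact Real.rpow_le_rpow_of_nonpos (by linarith) hd (by linarith)

theorem norm_re {r : ℝ} (hr : 0 < r) (θ : ℝ) : ‖(r : ℂ) * Complex.exp (θ * I)‖ = r := by
  rw [norm_mul, Complex.norm_exp_ofReal_mul_I, mul_one, Complex.norm_real,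
    Real.norm_of_nonneg hr.le]

theorem cont_deriv {f : ℂ → ℂ} (hd : DifferentiableOn ℂ f (ball 0 1))
    (hinj : InjOn f (ball 0 1)) (t : ℝ) {r : ℝ} (hr0 : 0 < r) (hr1 : r < 1) :
    Continuous (fun θ : ℝ => ‖deriv f (r * Complex.exp (θ * I))‖ ^ t) := by
  rw [continuous_iff_continuousAt]
  intro θ
  have hm : (r : ℂ) * Complex.exp (θ * I) ∈ ball (0 : ℂ) 1 := by
    rw [mem_ball, dist_zero_right, norm_re hr0]; exact hr1
  have h1 : ContinuousAt (deriv f) ((r : ℂ) * Complex.exp (θ * I)) :=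
    (hd.analyticAt (isOpen_ball.mem_nhds hm)).deriv.continuousAt
  have h2 : ContinuousAt (fun θ : ℝ => (r : ℂ) * Complex.exp (θ * I)) θ := by fun_prop
  have h3 : ContinuousAt (fun θ : ℝ => deriv f ((r : ℂ) * Complex.exp (θ * I))) θ :=
    ContinuousAt.comp (f := fun θ : ℝ => (r : ℂ) * Complex.exp (θ * I)) h1 h2
  exact h3.norm.rpow_const (Or.inl (norm_ne_zero_iff.mpr (deriv_ne hd hinj hm)))

theorem cont_poi {ζ : ℂ} (hζ : ‖ζ‖ = 1) {r : ℝ} (hr0 : 0 < r) (hr1 : r < 1) :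
    Continuous (fun θ : ℝ => (‖ζ - r * Complex.exp (θ * I)‖ ^ 2)⁻¹) := by
  refine Continuous.inv₀ (by fun_prop) ?_
  intro θ
  have := dist_bdry hζ ((r : ℂ) * Complex.exp (θ * I))
  rw [norm_re hr0] at this
  have h2 : 0 < ‖ζ - r * Complex.exp (θ * I)‖ := by linarith
  positivity

theorem means {f : ℂ → ℂ} (hd : DifferentiableOn ℂ f (ball 0 1))
    (hinj : InjOn f (ball 0 1)) (hf : ∀ ζ : ℂ, ‖ζ‖ = 1 → MeromorphicAt f ζ) {t : ℝ}
    (ht : t ≤ -2) :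
    ∃ C : ℝ, ∀ r : ℝ, 0 < r → r < 1 →
      ∫ θ in (-Real.pi)..Real.pi, ‖deriv f (r * Complex.exp (θ * I))‖ ^ t ≤
        C * (1 - r) ^ (t + 1) := by
  have hloc : ∀ ζ ∈ sphere (0 : ℂ) 1, ∃ ρ > 0, ∃ e > 0,
      ∀ z ∈ ball ζ ρ ∩ ball 0 1, e * ‖ζ - z‖ ≤ ‖deriv f z‖ := by
    intro ζ hζ
    rw [mem_sphere, dist_zero_right] at hζ
    obtain ⟨k, hk1, hk2, E, hE, hE0, hform⟩ := local_form hinj hζ (hf ζ hζ)
    exact lower_local hk2 hE hE0 hform hζ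
  choose! ρ hρ e he hb using hloc
  obtain ⟨S, hS1, hS2⟩ := (isCompact_sphere (0 : ℂ) 1).elim_nhds_subcover
    (fun ζ => ball ζ (ρ ζ)) (fun ζ hζ => ball_mem_nhds ζ (hρ ζ hζ))
  -- the rest of the closed disc is compact inside the open disc
  set K : Set ℂ := closedBall 0 1 \ ⋃ ζ ∈ S, ball ζ (ρ ζ) with hK
  have hKc : IsCompact K :=
    (isCompact_closedBall (0 : ℂ) 1).diff (isOpen_biUnion (fun _ _ => isOpen_ball))
  have hKb : K ⊆ ball 0 1 := by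
    rintro z ⟨hz1, hz2⟩
    rw [mem_closedBall] at hz1
    rcases hz1.lt_or_eq with h | h
    · exact h
    · exact absurd (hS2 (mem_sphere.mpr h)) hz2
  have hcont : ContinuousOn (fun z => ‖deriv f z‖ ^ t) K := by
    intro z hz
    have h1 : ContinuousAt (deriv f) z :=
      (hd.analyticAt (isOpen_ball.mem_nhds (hKb hz))).deriv.continuousAt
    exact (h1.norm.rpow_const
      (Or.inl (norm_ne_zero_iff.mpr (deriv_ne hd hinj (hKb hz))))).continuousWithinAt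
  obtain ⟨M, hM⟩ := hKc.bddAbove_image hcont
  set M' : ℝ := max M 0 with hM'
  have hM0 : 0 ≤ M' := le_max_right _ _
  refine ⟨M' * (2 * Real.pi) + ∑ ζ ∈ S, e ζ ^ t * (2 * Real.pi), ?_⟩
  intro r hr0 hr1
  have hr : 0 < 1 - r := by linarith
  have hpt : ∀ θ : ℝ, ‖deriv f (r * Complex.exp (θ * I))‖ ^ t ≤
      M' + ∑ ζ ∈ S, e ζ ^ t * ((1 - r) ^ (t + 2) *
        (‖ζ - r * Complex.exp (θ * I)‖ ^ 2)⁻¹) := by
    intro θ
    have hnorm := norm_re hr0 θ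
    set z : ℂ := r * Complex.exp (θ * I) with hz
    have hzb : z ∈ ball (0 : ℂ) 1 := by rw [mem_ball, dist_zero_right, hnorm]; exact hr1
    have hnn : ∀ ζ ∈ S, 0 ≤ e ζ ^ t * ((1 - r) ^ (t + 2) * (‖ζ - z‖ ^ 2)⁻¹) := by
      intro ζ hζ
      have := he ζ (hS1 ζ hζ)
      positivity
    by_cases hc : z ∈ ⋃ ζ ∈ S, ball ζ (ρ ζ)
    · simp only [mem_iUnion] at hc
      obtain ⟨ζ, hζ, hzz⟩ := hc
      have hζ1 : ‖ζ‖ = 1 := by
        have := hS1 ζ hζ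
        rwa [mem_sphere, dist_zero_right] at this
      have h1 := pow_local (he ζ (hS1 ζ hζ)) hζ1 (hb ζ (hS1 ζ hζ)) ht ⟨hzz, hzb⟩
      rw [hnorm] at h1
      have h2 := Finset.single_le_sum hnn hζ
      linarith
    · have h1 : ‖deriv f z‖ ^ t ≤ M := hM (mem_image_of_mem _ ⟨ball_subset_closedBall hzb, hc⟩)
      have h2 := Finset.sum_nonneg hnn
      have h3 : M ≤ M' := le_max_left _ _
      linarith
  have hci : ∀ ζ ∈ S, Continuous (fun θ : ℝ => e ζ ^ t * ((1 - r) ^ (t + 2) *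
        (‖ζ - r * Complex.exp (θ * I)‖ ^ 2)⁻¹)) := by
    intro ζ hζ
    have hζ1 : ‖ζ‖ = 1 := by
      have := hS1 ζ hζ
      rwa [mem_sphere, dist_zero_right] at this
    exact continuous_const.mul (continuous_const.mul (cont_poi hζ1 hr0 hr1))
  have hsum : Continuous (fun θ : ℝ => ∑ ζ ∈ S, e ζ ^ t * ((1 - r) ^ (t + 2) *
        (‖ζ - r * Complex.exp (θ * I)‖ ^ 2)⁻¹)) := continuous_finset_sum S hci
  have hpi : -Real.pi ≤ Real.pi := by linarith [Real.pi_pos]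
  have hR : Continuous (fun θ : ℝ => M' + ∑ ζ ∈ S, e ζ ^ t * ((1 - r) ^ (t + 2) *
        (‖ζ - r * Complex.exp (θ * I)‖ ^ 2)⁻¹)) := continuous_const.add hsum
  have hmono : ∫ θ in (-Real.pi)..Real.pi, ‖deriv f (r * Complex.exp (θ * I))‖ ^ t ≤
      ∫ θ in (-Real.pi)..Real.pi, (M' + ∑ ζ ∈ S, e ζ ^ t * ((1 - r) ^ (t + 2) *
        (‖ζ - r * Complex.exp (θ * I)‖ ^ 2)⁻¹)) :=
    intervalIntegral.integral_mono_on (μ := volume) hpi
      ((cont_deriv hd hinj t hr0 hr1).intervalIntegrable _ _)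
      (hR.intervalIntegrable _ _) (fun θ _ => hpt θ)
  refine hmono.trans ?_
  rw [intervalIntegral.integral_add (continuous_const.intervalIntegrable _ _)
    (hsum.intervalIntegrable _ _), intervalIntegral.integral_const,
    intervalIntegral.integral_finset_sum (fun ζ hζ => (hci ζ hζ).intervalIntegrable _ _),
    add_mul, Finset.sum_mul]
  have hpow1 : 1 ≤ (1 - r) ^ (t + 1) := by
    exact Real.one_le_rpow_of_pos_of_le_one_of_nonpos hr (by linarith) (by linarith)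
  refine add_le_add ?_ (Finset.sum_le_sum ?_)
  · rw [smul_eq_mul]
    have h1 : 0 ≤ M' * (2 * Real.pi) := by positivity
    nlinarith
  · intro ζ hζ
    have hζ1 : ‖ζ‖ = 1 := by
      have := hS1 ζ hζ
      rwa [mem_sphere, dist_zero_right] at this
    rw [intervalIntegral.integral_const_mul, intervalIntegral.integral_const_mul,
      poisson' hζ1 hr0 hr1, mul_assoc]
    refine mul_le_mul_of_nonneg_left ?_ (Real.rpow_nonneg (he ζ (hS1 ζ hζ)).le _)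
    have h1 : (1 - r) ^ (t + 2) = (1 - r) ^ (t + 1) * (1 - r) := by
      rw [← Real.rpow_add_one hr.ne']
      congr 1
      ring
    have h2 : (1 - r) * (2 * Real.pi / (1 - r ^ 2)) ≤ 2 * Real.pi := by
      have h3 : 1 - r ^ 2 = (1 - r) * (1 + r) := by ring
      rw [h3, mul_div_assoc', mul_div_mul_left _ _ hr.ne', div_le_iff₀ (by linarith)]
      nlinarith [Real.pi_pos]
    have h4 : 0 ≤ (1 - r) ^ (t + 1) := Real.rpow_nonneg hr.le _
    rw [h1, mul_assoc, mul_comm (2 * Real.pi)]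
    exact mul_le_mul_of_nonneg_left h2 h4

end Vale.Agent.P142
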